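import Vale.Agent.P017.H506.L2

/-!
# Good sets for the third moment
-/

namespace Vale.Agent.P017.H654

open Finset Vale.Agent.P017.H506

/-- vectors over the field with two elements -/
abbrev V (k : ℕ) := Fin k → ZMod 2

section gen

variable {k : ℕ}

/-- dot product -/
def dt (a b : V k) : ZMod 2 := ∑ i, a i * b i

theorem dt_add_left (a a' b : V k) : dt (a + a') b = dt a b + dt a' b := by
  unfold dt
  rw [← Finset.sum_add_distrib]
  exact Finset.sum_congr rfl fun i _ => by rw [Pi.add_apply, add_mul]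

theorem dt_add_right (a b b' : V k) : dt a (b + b') = dt a b + dt a b' := by
  unfold dt
  rw [← Finset.sum_add_distrib]
  exact Finset.sum_congr rfl fun i _ => by rw [Pi.add_apply, mul_add]

theorem dt_zero_left (b : V k) : dt 0 b = 0 := by
  unfold dt
  exact Finset.sum_eq_zero fun i _ => by rw [Pi.zero_apply, zero_mul]

theorem dt_zero_right (b : V k) : dt b 0 = 0 := by
  unfold dt
  exact Finset.sum_eq_zero fun i _ => by rw [Pi.zero_apply, mul_zero]

/-- first components -/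
def fx (u : Ix k) : V k := fun i => (u i).1

/-- second components -/
def ft (u : Ix k) : V k := fun i => (u i).2

/-- the element with given components -/
def mk (a b : V k) : Ix k := fun i => (a i, b i)

theorem fx_mk (a b : V k) : fx (mk a b) = a := rfl

theorem ft_mk (a b : V k) : ft (mk a b) = b := rfl

theorem mk_eta (u : Ix k) : mk (fx u) (ft u) = u := rfl

theorem Pk_eq (u v : Ix k) : Pk k u v = dt (ft v) (fx u + fx v) := rfl

theorem add_self (a : V k) : a + a = 0 := funext fun i => CharTwo.add_self_eq_zero (a i)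

theorem add_cancel_left (a b : V k) : a + (a + b) = b := by
  rw [← add_assoc, add_self, zero_add]

theorem z_add_self (a : ZMod 2) : a + a = 0 := CharTwo.add_self_eq_zero a

theorem z_eq_of_add {a b : ZMod 2} (h : a + b = 0) : a = b := by
  have := congrArg (· + b) h
  simpa [add_assoc, z_add_self] using this

/-- good sets -/
def Gd (P : Ix k → Ix k → ZMod 2) (U : Finset (Ix k)) : Prop :=
  ∀ u ∈ U, ∀ v ∈ U, ∀ w ∈ U, P u v = P u w + P v w

theorem orth1 {U : Finset (Ix k)} (h : Gd (Pk k) U) {u v w : Ix k} (hu : u ∈ U) (hv : v ∈ U)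
    (hw : w ∈ U) : dt (ft v + ft w) (fx u + fx v) = 0 := by
  have h1 := h u hu v hv w hw
  rw [Pk_eq, Pk_eq, Pk_eq, ← dt_add_right] at h1
  have e : fx u + fx w + (fx v + fx w) = fx u + fx v := by
    have : fx u + fx w + (fx v + fx w) = fx u + fx v + (fx w + fx w) := by abel
    rw [this, add_self, add_zero]
  rw [e] at h1
  rw [dt_add_left, h1, z_add_self]

theorem orth {U : Finset (Ix k)} (h : Gd (Pk k) U) {u u' v w : Ix k} (hu : u ∈ U) (hu' : u' ∈ U)
    (hv : v ∈ U) (hw : w ∈ U) : dt (ft v + ft w) (fx u + fx u') = 0 := by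
  have e : fx u + fx u' = (fx u + fx v) + (fx u' + fx v) := by
    have : (fx u + fx v) + (fx u' + fx v) = fx u + fx u' + (fx v + fx v) := by abel
    rw [this, add_self, add_zero]
  rw [e, dt_add_right, orth1 h hu hv hw, orth1 h hu' hv hw, add_zero]

/-- maximality -/
theorem max_mem {U : Finset (Ix k)} (hc : U.card = 2 ^ k) (hu : Unl (Pk k) U) {z : Ix k}
    (hz : ∀ w ∈ U, dt (ft z + ft w) (fx z + fx w) = 0) : z ∈ U := by
  classical
  by_contra hzU
  have hsym : ∀ w ∈ U, Pk k z w = Pk k w z := by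
    intro w hw
    rw [Pk_eq, Pk_eq]
    refine z_eq_of_add ?_
    rw [add_comm (fx w) (fx z), ← dt_add_left, add_comm (ft w) (ft z)]
    exact hz w hw
  have h1 : Unl (Pk k) (insert z U) := by
    intro u hu1 v hv1
    rcases Finset.mem_insert.mp hu1 with rfl | hu2
    · rcases Finset.mem_insert.mp hv1 with rfl | hv2
      · rfl
      · exact hsym v hv2
    · rcases Finset.mem_insert.mp hv1 with rfl | hv2
      · exact (hsym u hu2).symm
      · exact hu u hu2 v hv2
  have h2 := unl_le k _ h1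
  rw [Finset.card_insert_of_notMem hzU, hc] at h2
  omega

open Classical in
/-- differences of the first components -/
noncomputable def AA (U : Finset (Ix k)) : Finset (V k) :=
  (U ×ˢ U).image fun p => fx p.1 + fx p.2

theorem mem_AA {U : Finset (Ix k)} {a : V k} :
    a ∈ AA U ↔ ∃ u ∈ U, ∃ v ∈ U, fx u + fx v = a := by
  classical
  unfold AA
  rw [Finset.mem_image]
  constructor
  · rintro ⟨p, hp, rfl⟩
    rw [Finset.mem_product] at hp
    exact ⟨p.1, hp.1, p.2, hp.2, rfl⟩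
  · rintro ⟨u, hu, v, hv, rfl⟩
    exact ⟨(u, v), Finset.mem_product.mpr ⟨hu, hv⟩, rfl⟩

/-- every vector orthogonal to the differences of the second components is allowed -/
theorem add_fst {U : Finset (Ix k)} (hc : U.card = 2 ^ k) (hu : Unl (Pk k) U)
    (h : Gd (Pk k) U) {u : Ix k} (hu0 : u ∈ U) {a : V k}
    (ha : ∀ v ∈ U, ∀ w ∈ U, dt (ft v + ft w) a = 0) : mk (fx u + a) (ft u) ∈ U := by
  refine max_mem hc hu fun w hw => ?_
  rw [fx_mk, ft_mk]
  have e : fx u + a + fx w = (fx u + fx w) + a := by abel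
  rw [e, dt_add_right, orth h hu0 hw hu0 hw, ha u hu0 w hw, add_zero]

theorem add_snd {U : Finset (Ix k)} (hc : U.card = 2 ^ k) (hu : Unl (Pk k) U)
    (h : Gd (Pk k) U) {u : Ix k} (hu0 : u ∈ U) {b : V k}
    (hb : ∀ v ∈ U, ∀ w ∈ U, dt b (fx v + fx w) = 0) : mk (fx u) (ft u + b) ∈ U := by
  refine max_mem hc hu fun w hw => ?_
  rw [fx_mk, ft_mk]
  have e : ft u + b + ft w = (ft u + ft w) + b := by abel
  rw [e, dt_add_left, orth h hu0 hw hu0 hw, hb u hu0 w hw, add_zero]

theorem AA_iff {U : Finset (Ix k)} (hc : U.card = 2 ^ k) (hu : Unl (Pk k) U)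
    (h : Gd (Pk k) U) (hne : U.Nonempty) (a : V k) :
    a ∈ AA U ↔ ∀ v ∈ U, ∀ w ∈ U, dt (ft v + ft w) a = 0 := by
  constructor
  · intro ha v hv w hw
    obtain ⟨u, hu1, u', hu2, rfl⟩ := mem_AA.mp ha
    exact orth h hu1 hu2 hv hw
  · intro ha
    obtain ⟨u, hu0⟩ := hne
    have h1 := add_fst hc hu h hu0 ha
    exact mem_AA.mpr ⟨u, hu0, _, h1, by rw [fx_mk, add_cancel_left]⟩

/-- closed under addition, and contains zero -/
def Cl (S : Finset (V k)) : Prop := (0 : V k) ∈ S ∧ ∀ a ∈ S, ∀ b ∈ S, a + b ∈ S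

theorem AA_cl {U : Finset (Ix k)} (hc : U.card = 2 ^ k) (hu : Unl (Pk k) U)
    (h : Gd (Pk k) U) (hne : U.Nonempty) : Cl (AA U) := by
  constructor
  · rw [AA_iff hc hu h hne]
    exact fun v _ w _ => dt_zero_right _
  · intro a ha b hb
    rw [AA_iff hc hu h hne] at ha hb ⊢
    intro v hv w hw
    rw [dt_add_right, ha v hv w hw, hb v hv w hw, add_zero]

/-- the set is determined by one element and the differences -/
theorem mem_iff {U : Finset (Ix k)} (hc : U.card = 2 ^ k) (hu : Unl (Pk k) U)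
    (h : Gd (Pk k) U) {u : Ix k} (hu0 : u ∈ U) (z : Ix k) :
    z ∈ U ↔ fx u + fx z ∈ AA U ∧ ∀ a ∈ AA U, dt (ft u + ft z) a = 0 := by
  constructor
  · intro hz
    refine ⟨mem_AA.mpr ⟨u, hu0, z, hz, rfl⟩, fun a ha => ?_⟩
    exact (AA_iff hc hu h ⟨u, hu0⟩ a).mp ha u hu0 z hz
  · rintro ⟨h1, h2⟩
    have h3 := (AA_iff hc hu h ⟨u, hu0⟩ _).mp h1
    have h4 := add_fst hc hu h hu0 h3
    rw [add_cancel_left] at h4
    have h5 : ∀ v ∈ U, ∀ w ∈ U, dt (ft u + ft z) (fx v + fx w) = 0 := fun v hv w hw =>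
      h2 _ (mem_AA.mpr ⟨v, hv, w, hw, rfl⟩)
    have h6 := add_snd hc hu h h4 h5
    rw [fx_mk, ft_mk, add_cancel_left] at h6
    exact h6

end gen

/-! ### Sixteen subspaces -/

/-- coordinates -/
def cc (a b c : ZMod 2) : V 3 := ![a, b, c]

theorem cc_add (a b c a' b' c' : ZMod 2) : cc a b c + cc a' b' c' = cc (a + a') (b + b') (c + c') := by
  funext i
  fin_cases i <;> rfl

theorem cc_surj (v : V 3) : v = cc (v 0) (v 1) (v 2) := by
  funext i
  fin_cases i <;> rfl

theorem z_cases (a : ZMod 2) : a = 0 ∨ a = 1 := by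
  revert a; decide

/-- zero or one -/
def bn (b : Bool) : ℕ := cond b 1 0

theorem bn_le (b : Bool) : bn b ≤ 1 := by cases b <;> decide

theorem bn_inj {b c : Bool} (h : bn b = bn c) : b = c := by
  revert h; cases b <;> cases c <;> decide

/-- the code of seven truth values -/
def n7 (b1 b2 b3 b4 b5 b6 b7 : Bool) : ℕ :=
  bn b1 + 2 * bn b2 + 4 * bn b3 + 8 * bn b4 + 16 * bn b5 + 32 * bn b6 + 64 * bn b7

/-- the lines -/
def ok (b1 b2 b3 b4 b5 b6 b7 : Bool) : Bool :=
  (!(b1 && b2) || b3) && (!(b1 && b3) || b2) && (!(b2 && b3) || b1) &&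
  (!(b1 && b4) || b5) && (!(b1 && b5) || b4) && (!(b4 && b5) || b1) &&
  (!(b1 && b6) || b7) && (!(b1 && b7) || b6) && (!(b6 && b7) || b1) &&
  (!(b2 && b4) || b6) && (!(b2 && b6) || b4) && (!(b4 && b6) || b2) &&
  (!(b2 && b5) || b7) && (!(b2 && b7) || b5) && (!(b5 && b7) || b2) &&
  (!(b3 && b4) || b7) && (!(b3 && b7) || b4) && (!(b4 && b7) || b3) &&
  (!(b3 && b5) || b6) && (!(b3 && b6) || b5) && (!(b5 && b6) || b3)

/-- the codes of the subspaces -/
def codes : Finset ℕ :=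
  {0, 1, 2, 4, 8, 16, 32, 64, 7, 25, 97, 42, 82, 76, 52, 127}

theorem codes_card : codes.card = 16 := by decide

theorem ok_codes : ∀ b1 b2 b3 b4 b5 b6 b7 : Bool, ok b1 b2 b3 b4 b5 b6 b7 = true →
    n7 b1 b2 b3 b4 b5 b6 b7 ∈ codes := by decide

open Classical in
/-- the code of a set of vectors -/
noncomputable def cd (S : Finset (V 3)) : ℕ :=
  n7 (decide (cc 0 0 1 ∈ S)) (decide (cc 0 1 0 ∈ S)) (decide (cc 0 1 1 ∈ S))
    (decide (cc 1 0 0 ∈ S)) (decide (cc 1 0 1 ∈ S)) (decide (cc 1 1 0 ∈ S))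
    (decide (cc 1 1 1 ∈ S))

theorem n7_inj {b1 b2 b3 b4 b5 b6 b7 c1 c2 c3 c4 c5 c6 c7 : Bool}
    (h : n7 b1 b2 b3 b4 b5 b6 b7 = n7 c1 c2 c3 c4 c5 c6 c7) :
    b1 = c1 ∧ b2 = c2 ∧ b3 = c3 ∧ b4 = c4 ∧ b5 = c5 ∧ b6 = c6 ∧ b7 = c7 := by
  unfold n7 at h
  have h1 := bn_le b1
  have h2 := bn_le b2
  have h3 := bn_le b3
  have h4 := bn_le b4
  have h5 := bn_le b5
  have h6 := bn_le b6
  have h7 := bn_le b7
  have k1 := bn_le c1
  have k2 := bn_le c2
  have k3 := bn_le c3
  have k4 := bn_le c4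
  have k5 := bn_le c5
  have k6 := bn_le c6
  have k7 := bn_le c7
  refine ⟨bn_inj ?_, bn_inj ?_, bn_inj ?_, bn_inj ?_, bn_inj ?_, bn_inj ?_, bn_inj ?_⟩ <;> omega

theorem cd_inj {S T : Finset (V 3)} (h0 : (0 : V 3) ∈ S) (h0' : (0 : V 3) ∈ T)
    (h : cd S = cd T) : S = T := by
  classical
  unfold cd at h
  obtain ⟨h1, h2, h3, h4, h5, h6, h7⟩ := n7_inj h
  rw [decide_eq_decide] at h1 h2 h3 h4 h5 h6 h7
  have hz : (0 : V 3) = cc 0 0 0 := by
    funext i
    fin_cases i <;> rfl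
  have h8 : cc 0 0 0 ∈ S ↔ cc 0 0 0 ∈ T := by
    rw [← hz]
    exact iff_of_true h0 h0'
  ext v
  rw [cc_surj v]
  rcases z_cases (v 0) with e0 | e0 <;> rcases z_cases (v 1) with e1 | e1 <;>
    rcases z_cases (v 2) with e2 | e2 <;> rw [e0, e1, e2] <;> assumption

theorem cd_mem {S : Finset (V 3)} (h : Cl S) : cd S ∈ codes := by
  classical
  unfold cd
  refine ok_codes _ _ _ _ _ _ _ ?_
  have key : ∀ a b c : V 3, a + b = c →
      (!(decide (a ∈ S) && decide (b ∈ S)) || decide (c ∈ S)) = true := by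
    intro a b c e
    by_cases ha : a ∈ S
    · by_cases hb : b ∈ S
      · have hc : c ∈ S := e ▸ h.2 a ha b hb
        simp [hc]
      · simp [hb]
    · simp [ha]
  simp only [ok, Bool.and_eq_true]
  repeat' refine And.intro ?_ ?_
  all_goals exact key _ _ _ (by rw [cc_add]; rfl)

open Classical in
theorem subs_card : (univ.filter fun S : Finset (V 3) => Cl S).card ≤ 16 := by
  rw [← codes_card]
  refine Finset.card_le_card_of_injOn cd (fun S hS => ?_) (fun S hS T hT h => ?_)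
  · exact cd_mem (Finset.mem_filter.mp (Finset.mem_coe.mp hS)).2
  · exact cd_inj (Finset.mem_filter.mp (Finset.mem_coe.mp hS)).2.1
      (Finset.mem_filter.mp (Finset.mem_coe.mp hT)).2.1 h

theorem card_Ix : Fintype.card (Ix 3) = 64 := by
  simp [Ix]

theorem mem_UsN {ι : Type*} [Fintype ι] (P : ι → ι → ZMod 2) (N : ℕ) (U : Finset ι) :
    U ∈ UsN P N ↔ U.card = N ∧ Unl P U := by
  unfold UsN
  simp only [Finset.mem_filter, Finset.mem_univ, true_and]

open Classical in
theorem good_three : ((UsN (Pk 3) 8).filter (fun U => Gd (Pk 3) U)).card ≤ 128 := by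
  set G := (UsN (Pk 3) 8).filter (fun U => Gd (Pk 3) U) with hG
  have hmem : ∀ U ∈ G, U.card = 2 ^ 3 ∧ Unl (Pk 3) U ∧ Gd (Pk 3) U := by
    intro U hU
    rw [hG, Finset.mem_filter, mem_UsN] at hU
    exact ⟨hU.1.1, hU.1.2, hU.2⟩
  have hne : ∀ U ∈ G, U.Nonempty := by
    intro U hU
    rw [← Finset.card_pos, (hmem U hU).1]
    norm_num
  have h1 : (G.sigma (fun U => U)).card ≤
      ((univ.filter fun S : Finset (V 3) => Cl S) ×ˢ (univ : Finset (Ix 3))).card := by
    refine Finset.card_le_card_of_injOn (fun p => (AA p.1, p.2)) (fun p hp => ?_)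
      (fun p hp q hq h => ?_)
    · rw [Finset.mem_coe, Finset.mem_sigma] at hp
      rw [Finset.mem_coe, Finset.mem_product, Finset.mem_filter]
      obtain ⟨e1, e2, e3⟩ := hmem _ hp.1
      exact ⟨⟨Finset.mem_univ _, AA_cl e1 e2 e3 (hne _ hp.1)⟩, Finset.mem_univ _⟩
    · rw [Finset.mem_coe, Finset.mem_sigma] at hp hq
      obtain ⟨e1, e2, e3⟩ := hmem _ hp.1
      obtain ⟨f1, f2, f3⟩ := hmem _ hq.1
      obtain ⟨U, u⟩ := p
      obtain ⟨W, w⟩ := q
      simp only [Prod.mk.injEq] at h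
      obtain ⟨hA, rfl⟩ := h
      have hUW : U = W := by
        ext z
        rw [mem_iff e1 e2 e3 hp.2, mem_iff f1 f2 f3 hq.2, hA]
      subst hUW
      rfl
  rw [Finset.card_sigma, Finset.sum_congr rfl fun U hU => (hmem U hU).1, Finset.sum_const,
    smul_eq_mul, Finset.card_product, Finset.card_univ, card_Ix] at h1
  have h2 := subs_card
  have h3 : G.card * 2 ^ 3 ≤ 16 * 64 := h1.trans (Nat.mul_le_mul_right _ h2)
  omega

end Vale.Agent.P017.H654
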