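import Vale.Agent.P017.H506.R0
import Vale.Agent.P017.H506.S3
import Vale.Agent.P017.H654.Good

/-!
# The main terms of the good sets, all types
-/

namespace Vale.Agent.P017.H654

open Finset Vale.Agent.P014.FM Vale.Agent.P017.H506

/-- power with exponent modulo two -/
def pw (x : ZMod 2) (c : ℝ) : ℝ := if x = 1 then c else 1

theorem pw_zero (c : ℝ) : pw 0 c = 1 := if_neg (by decide)

theorem pw_one (c : ℝ) : pw 1 c = c := if_pos rfl

theorem pw_eq (x : ZMod 2) (c : ℝ) : pw x c = c ^ x.val := by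
  rcases z_cases x with h | h
  · rw [h, pw_zero, ZMod.val_zero, pow_zero]
  · rw [h, pw_one, show (1 : ZMod 2).val = 1 from rfl, pow_one]

theorem pw_add {x y : ZMod 2} {c : ℝ} (h : c * c = 1 ∨ (x = 0 ∧ y = 0)) :
    pw (x + y) c = pw x c * pw y c := by
  rcases z_cases x with hx | hx <;> rcases z_cases y with hy | hy
  · rw [hx, hy, add_zero, pw_zero, mul_one]
  · rw [hx, hy, zero_add, pw_zero, one_mul]
  · rw [hx, hy, add_zero, pw_zero, mul_one]
  · rcases h with h | ⟨h, -⟩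
    · rw [hx, hy, show (1 : ZMod 2) + 1 = 0 from by decide, pw_zero, pw_one, h]
    · rw [hx] at h
      exact absurd h (by decide)

theorem pw_abs (x : ZMod 2) {c : ℝ} (h : |c| ≤ 1) : |pw x c| ≤ 1 := by
  rcases z_cases x with hx | hx
  · rw [hx, pw_zero, abs_one]
  · rw [hx, pw_one]; exact h

theorem pw_mul (x : ZMod 2) (c d : ℝ) : pw x (c * d) = pw x c * pw x d := by
  rcases z_cases x with hx | hx
  · rw [hx, pw_zero, pw_zero, pw_zero, one_mul]
  · rw [hx, pw_one, pw_one, pw_one]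

theorem slot_eq (x y z : ZMod 2) (m : ℕ) :
    slot x y z m = pw x (chi8 m) * pw y (J m 5) * pw z (J m 3) := rfl

theorem sgn2_eq (z : ZMod 2) : sgn2 z = pw z (-1) := rfl

theorem chi8_mul (m m' : ℕ) : chi8 (m * m') = chi8 m * chi8 m' := by
  unfold chi8
  rw [Nat.cast_mul, map_mul, Int.cast_mul]

theorem chi8_one : chi8 1 = 1 := by
  unfold chi8
  rw [Nat.cast_one, map_one, Int.cast_one]

theorem slot_mul (x y z : ZMod 2) (m m' : ℕ) :
    slot x y z (m * m') = slot x y z m * slot x y z m' := by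
  rw [slot_eq, slot_eq, slot_eq, chi8_mul, Vale.Agent.P014.H580.J_mul_left,
    Vale.Agent.P014.H580.J_mul_left, pw_mul, pw_mul, pw_mul]
  ring

theorem J_one (q : ℕ) : J 1 q = 1 := by
  unfold Vale.Agent.P014.H580.J
  rw [Nat.cast_one, jacobiSym.one_left, Int.cast_one]

theorem slot_one (x y z : ZMod 2) : slot x y z 1 = 1 := by
  have h : ∀ t : ZMod 2, pw t 1 = 1 := fun t => by unfold pw; split_ifs <;> rfl
  rw [slot_eq, chi8_one, J_one, J_one, h, h, h]
  norm_num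

theorem slot_prod (x y z : ZMod 2) (s : Finset ℕ) :
    ∏ p ∈ s, slot x y z p = slot x y z (∏ p ∈ s, p) := by
  classical
  induction s using Finset.induction_on with
  | empty => rw [Finset.prod_empty, Finset.prod_empty, slot_one]
  | insert a s ha ih => rw [Finset.prod_insert ha, Finset.prod_insert ha, ih, slot_mul]

/-! ### values at odd primes -/

theorem chi8_sq {p : ℕ} (hp : p % 2 = 1) : chi8 p * chi8 p = 1 := by
  unfold chi8
  have h : ∀ a : ZMod 8, a.val % 2 = 1 → ZMod.χ₈ a * ZMod.χ₈ a = 1 := by decide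
  have h1 : ((p : ℕ) : ZMod 8).val % 2 = 1 := by
    rw [ZMod.val_natCast]
    omega
  have h2 := h _ h1
  rw [← Int.cast_mul, h2, Int.cast_one]

theorem chi8_abs (p : ℕ) : |chi8 p| ≤ 1 := by
  unfold chi8
  have h : ∀ a : ZMod 8, |ZMod.χ₈ a| ≤ 1 := by decide
  have h1 := h (p : ZMod 8)
  rw [← Int.cast_abs]
  exact_mod_cast h1

theorem J_sq {p q : ℕ} (h : Nat.Coprime p q) : J p q * J p q = 1 := by
  unfold Vale.Agent.P014.H580.J
  have h1 : Int.gcd (p : ℤ) (q : ℤ) = 1 := by rw [Int.gcd_natCast_natCast]; exact h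
  rcases jacobiSym.eq_one_or_neg_one h1 with h2 | h2 <;> rw [h2] <;> norm_num

theorem slot_abs (x y z : ZMod 2) (m : ℕ) : |slot x y z m| ≤ 1 := by
  rw [slot_eq, abs_mul, abs_mul]
  have h1 := pw_abs x (chi8_abs m)
  have h2 := pw_abs y (Vale.Agent.P014.H580.J_abs m 5)
  have h3 := pw_abs z (Vale.Agent.P014.H580.J_abs m 3)
  have h4 : |pw x (chi8 m)| * |pw y (J m 5)| ≤ 1 := by
    have := mul_le_mul h1 h2 (abs_nonneg _) zero_le_one
    rwa [one_mul] at this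
  have := mul_le_mul h4 h3 (abs_nonneg _) zero_le_one
  rwa [one_mul] at this

theorem sgn2_abs (z : ZMod 2) : |sgn2 z| ≤ 1 := by
  rw [sgn2_eq]
  exact pw_abs z (by norm_num)

section sets

variable {k : ℕ}

theorem fx_add (u v : Ix k) : fx (u + v) = fx u + fx v := rfl

theorem ft_add (u v : Ix k) : ft (u + v) = ft u + ft v := rfl

theorem E5_eq (θ : Tx k) (u : Ix k) : E5 θ u = dt (ft u) θ.2.1 := rfl

theorem E3_eq (θ : Tx k) (u : Ix k) : E3 θ u = dt θ.2.2 (fx u) := rfl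

theorem E8_eq (tp : ℕ) (θ : Tx k) (u : Ix k) :
    E8 tp θ u = dt (ft u) θ.1 + (if tp = 2 then dt (ft u) (fx u) else 0) := by
  unfold E8 dt
  split_ifs with h
  · rw [← Finset.sum_add_distrib]
    exact Finset.sum_congr rfl fun i _ => by
      change (u i).2 * (θ.1 i + (u i).1) = (u i).2 * θ.1 i + (u i).2 * (u i).1
      ring
  · rw [add_zero]
    exact Finset.sum_congr rfl fun i _ => by
      change (u i).2 * (θ.1 i + 0) = (u i).2 * θ.1 i
      ring

theorem two0 : (2 : ZMod 2) = 0 := by decide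

theorem unl_dt {U : Finset (Ix k)} (hu : Unl (Pk k) U) {u v : Ix k} (h1 : u ∈ U) (h2 : v ∈ U) :
    dt (ft u) (fx v) + dt (ft v) (fx u) = dt (ft u) (fx u) + dt (ft v) (fx v) := by
  have h := hu u h1 v h2
  rw [Pk_eq, Pk_eq, dt_add_right, dt_add_right] at h
  linear_combination h + (dt (ft u) (fx v) - dt (ft v) (fx v)) * two0

theorem q_add3 {U : Finset (Ix k)} (hu : Unl (Pk k) U) {u v w : Ix k} (h1 : u ∈ U) (h2 : v ∈ U)
    (h3 : w ∈ U) : dt (ft (u + v + w)) (fx (u + v + w)) =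
      dt (ft u) (fx u) + dt (ft v) (fx v) + dt (ft w) (fx w) := by
  rw [ft_add, ft_add, fx_add, fx_add]
  simp only [dt_add_left, dt_add_right]
  linear_combination unl_dt hu h1 h2 + unl_dt hu h1 h3 + unl_dt hu h2 h3 +
    (dt (ft u) (fx u) + dt (ft v) (fx v) + dt (ft w) (fx w)) * two0

theorem E8_add3 {U : Finset (Ix k)} (hu : Unl (Pk k) U) (tp : ℕ) (θ : Tx k) {u v w : Ix k}
    (h1 : u ∈ U) (h2 : v ∈ U) (h3 : w ∈ U) :
    E8 tp θ (u + v + w) = E8 tp θ u + E8 tp θ v + E8 tp θ w := by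
  rw [E8_eq, E8_eq, E8_eq, E8_eq, q_add3 hu h1 h2 h3, ft_add, ft_add, dt_add_left, dt_add_left]
  split_ifs <;> ring

theorem E5_add3 (θ : Tx k) (u v w : Ix k) : E5 θ (u + v + w) = E5 θ u + E5 θ v + E5 θ w := by
  rw [E5_eq, E5_eq, E5_eq, E5_eq, ft_add, ft_add, dt_add_left, dt_add_left]

theorem E3_add3 (θ : Tx k) (u v w : Ix k) : E3 θ (u + v + w) = E3 θ u + E3 θ v + E3 θ w := by
  rw [E3_eq, E3_eq, E3_eq, E3_eq, fx_add, fx_add, dt_add_right, dt_add_right]

theorem Pk_add3 {U : Finset (Ix k)} (hu : Unl (Pk k) U) (u₀ : Ix k) {u v w : Ix k}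
    (h1 : u ∈ U) (h2 : v ∈ U) (h3 : w ∈ U) :
    Pk k u₀ (u + v + w) = Pk k u₀ u + Pk k u₀ v + Pk k u₀ w := by
  rw [Pk_eq, Pk_eq, Pk_eq, Pk_eq]
  simp only [dt_add_right]
  rw [q_add3 hu h1 h2 h3, ft_add, ft_add, dt_add_left, dt_add_left]
  ring

/-- the average over a set is zero if a translation changes the sign -/
theorem sum_zero {U : Finset (Ix k)} (hU : U ∈ UsN (Pk k) (2 ^ k)) {u v : Ix k} (h1 : u ∈ U)
    (h2 : v ∈ U) (α : Ix k → ℝ) (h : ∀ w ∈ U, α (w + u + v) = - α w) : ∑ w ∈ U, α w = 0 := by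
  have hcl : ∀ w ∈ U, w + u + v ∈ U := fun w hw => H506.S3.closed hU hw h1 h2
  have hinv : ∀ w : Ix k, w + u + v + u + v = w := fun w => by
    have e : w + u + v + u + v = w + (u + u) + (v + v) := by abel
    rw [e, H506.S3.vadd_self, H506.S3.vadd_self, add_zero, add_zero]
  have e1 : ∑ w ∈ U, α (w + u + v) = ∑ w ∈ U, α w :=
    Finset.sum_bij' (fun w _ => w + u + v) (fun w _ => w + u + v) hcl hcl (fun w _ => hinv w)
      (fun w _ => hinv w) (fun w _ => rfl)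
  rw [Finset.sum_congr rfl h, Finset.sum_neg_distrib] at e1
  linarith

/-- the right hand side of `good_prod` -/
noncomputable def prodT (tp : ℕ) (θ : Tx k) (U : Finset (Ix k)) (u₀ : Ix k) (n : ℕ) : ℝ :=
  ∏ p ∈ n.primeFactors, ((1 / ((2 ^ k : ℕ) : ℝ)) *
      ∑ u ∈ U, slot (E8 tp θ u) (E5 θ u) (E3 θ u) p *
        (if p % 4 = 3 ∧ n % 4 = 1 then sgn2 (Pk k u₀ u) else 1))

/-- `AA` and the second components when the pairing vanishes -/
theorem ft_AA {U : Finset (Ix k)} (hP : ∀ u ∈ U, ∀ v ∈ U, Pk k u v = 0) {v : Ix k} (hv : v ∈ U)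
    {a : V k} (ha : a ∈ AA U) : dt (ft v) a = 0 := by
  obtain ⟨u, hu, w, hw, rfl⟩ := mem_AA.mp ha
  have h1 := hP u hu v hv
  have h2 := hP w hw v hv
  rw [Pk_eq, dt_add_right] at h1 h2
  rw [dt_add_right]
  linear_combination h1 + h2 - dt (ft v) (fx v) * two0

theorem nonempty_of {U : Finset (Ix k)} (hU : U ∈ UsN (Pk k) (2 ^ k)) : U.Nonempty := by
  rw [mem_UsN] at hU
  rw [← Finset.card_pos, hU.1]
  exact pow_pos (by norm_num) k

theorem mem_AA_of_const {U : Finset (Ix k)} (hU : U ∈ UsN (Pk k) (2 ^ k)) (hg : Good (Pk k) U)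
    {a : V k} (h : ∀ u ∈ U, ∀ v ∈ U, dt (ft u) a = dt (ft v) a) : a ∈ AA U := by
  have hU' := (mem_UsN _ _ _).mp hU
  rw [AA_iff hU'.1 hU'.2 hg (nonempty_of hU)]
  intro v hv w hw
  rw [dt_add_left, h v hv w hw, z_add_self]

theorem z_AA {U : Finset (Ix k)} {z : V k} (h : ∀ u ∈ U, ∀ v ∈ U, dt z (fx u) = dt z (fx v))
    {a : V k} (ha : a ∈ AA U) : dt z a = 0 := by
  obtain ⟨u, hu, w, hw, rfl⟩ := mem_AA.mp ha
  rw [dt_add_right, h u hu w hw, z_add_self]

theorem J_mod (m q r : ℕ) (h : m % q = r) : J m q = J r q := by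
  unfold Vale.Agent.P014.H580.J
  rw [← h, Int.natCast_mod, ← jacobiSym.mod_left]

theorem J13 : J 1 3 = 1 := J_one 3

theorem J23 : J 2 3 = -1 := by
  unfold Vale.Agent.P014.H580.J
  have h : jacobiSym ((2 : ℕ) : ℤ) 3 = -1 := by
    rw [Nat.cast_ofNat]
    norm_num
  rw [h]
  norm_num

theorem J45 : J 4 5 = 1 := by
  unfold Vale.Agent.P014.H580.J
  have h : jacobiSym ((4 : ℕ) : ℤ) 5 = 1 := by
    rw [Nat.cast_ofNat]
    norm_num
  rw [h]
  norm_num

theorem IsG_odd {tp cl n : ℕ} (hn : IsG tp cl n) : n % 2 = 1 := by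
  obtain ⟨-, h, -⟩ := hn
  split_ifs at h
  · omega
  · omega
  · exact h.2

theorem IsG_tp {tp cl n : ℕ} (hn : IsG tp cl n) (h0 : tp ≠ 0) (h1 : tp ≠ 1) : tp = 2 := by
  obtain ⟨-, h, -⟩ := hn
  rw [if_neg h0, if_neg h1] at h
  exact h.1

/-- the trivial pairs contribute one -/
theorem triv_prod {tp cl : ℕ} {θ : Tx k} (hθ : θ ∈ TT tp cl k) {U : Finset (Ix k)}
    (hU : U ∈ UsN (Pk k) (2 ^ k)) (ht : TrivT tp θ U) {u₀ : Ix k} (hu₀ : u₀ ∈ U) {n : ℕ}
    (hn : IsG tp cl n) : sT θ * prodT tp θ U u₀ n = 1 := by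
  obtain ⟨hg, hc, hP⟩ := ht
  have hU' := (mem_UsN _ _ _).mp hU
  have hodd := IsG_odd hn
  -- the product
  have hsum : ∀ p ∈ n.primeFactors, ((1 / ((2 ^ k : ℕ) : ℝ)) *
      ∑ u ∈ U, slot (E8 tp θ u) (E5 θ u) (E3 θ u) p *
        (if p % 4 = 3 ∧ n % 4 = 1 then sgn2 (Pk k u₀ u) else 1)) =
        slot (E8 tp θ u₀) (E5 θ u₀) (E3 θ u₀) p := by
    intro p _
    have h1 : ∀ u ∈ U, slot (E8 tp θ u) (E5 θ u) (E3 θ u) p *
        (if p % 4 = 3 ∧ n % 4 = 1 then sgn2 (Pk k u₀ u) else 1) =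
        slot (E8 tp θ u₀) (E5 θ u₀) (E3 θ u₀) p := by
      intro u hu
      obtain ⟨e8, e5, e3⟩ := hc u hu u₀ hu₀
      rw [e8, e5, e3]
      have : (if p % 4 = 3 ∧ n % 4 = 1 then sgn2 (Pk k u₀ u) else 1) = 1 := by
        split_ifs with h
        · have htp : tp ≠ 0 := by
            rintro rfl
            have h2 := hn.2.1
            rw [if_pos rfl] at h2
            omega
          rw [hP htp u₀ hu₀ u hu, sgn2_eq, pw_zero]
        · rfl
      rw [this, mul_one]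
    rw [Finset.sum_congr rfl h1, Finset.sum_const, nsmul_eq_mul, hU'.1, ← mul_assoc,
      one_div_mul_cancel, one_mul]
    exact_mod_cast (pow_pos (by norm_num) k : 0 < 2 ^ k).ne'
  have hprod : prodT tp θ U u₀ n = slot (E8 tp θ u₀) (E5 θ u₀) (E3 θ u₀) n := by
    unfold prodT
    rw [Finset.prod_congr rfl hsum, slot_prod, Nat.prod_primeFactors_of_squarefree hn.1]
  rw [hprod]
  -- the exponents
  have hf : θ.2.1 ∈ AA U := by
    refine mem_AA_of_const hU hg fun u hu v hv => ?_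
    have := (hc u hu v hv).2.1
    rwa [E5_eq, E5_eq] at this
  have hz : ∀ u ∈ U, ∀ v ∈ U, dt θ.2.2 (fx u) = dt θ.2.2 (fx v) := by
    intro u hu v hv
    have := (hc u hu v hv).2.2
    rwa [E3_eq, E3_eq] at this
  have hzf : dt θ.2.2 θ.2.1 = 0 := z_AA hz hf
  have hsT : sT θ = sgn2 (dt θ.2.2 θ.1) := by
    have : sT θ = sgn2 (dt θ.2.2 (θ.1 + θ.2.1)) := rfl
    rw [this, dt_add_right, hzf, add_zero]
  have hTT : (tp = 0 → θ.1 = 0) ∧ (cl = 0 → θ.2.1 = 0 ∧ θ.2.2 = 0) := by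
    unfold TT at hθ
    exact (Finset.mem_filter.mp hθ).2
  -- the values
  by_cases h0 : tp = 0
  · have hx := hTT.1 h0
    have e8 : E8 tp θ u₀ = 0 := by
      rw [E8_eq, hx, dt_zero_right, h0, if_neg (by norm_num), add_zero]
    rw [hsT, hx, dt_zero_right, sgn2_eq, pw_zero, one_mul, e8, slot_eq, pw_zero, one_mul]
    by_cases hcl : cl = 0
    · obtain ⟨h1, h2⟩ := hTT.2 hcl
      rw [E5_eq, E3_eq, h1, h2, dt_zero_right, dt_zero_left, pw_zero, pw_zero, one_mul]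
    · have h3 := hn.2.2
      rw [if_neg hcl] at h3
      have hd : dd tp n = n := by unfold dd; rw [if_neg (by omega)]
      rw [hd] at h3
      have j3 : J n 3 = 1 := by rw [J_mod n 3 1 h3.1, J_one]
      have j5 : J n 5 = 1 := by
        rcases h3.2 with h | h
        · rw [J_mod n 5 1 h, J_one]
        · rw [J_mod n 5 4 h, J45]
      rw [j3, j5]
      have : ∀ t : ZMod 2, pw t 1 = 1 := fun t => by unfold pw; split_ifs <;> rfl
      rw [this, this, one_mul]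
  · have hP' := hP h0
    have e5 : E5 θ u₀ = 0 := by rw [E5_eq]; exact ft_AA hP' hu₀ hf
    by_cases h1 : tp = 1
    · have hx : θ.1 ∈ AA U := by
        refine mem_AA_of_const hU hg fun u hu v hv => ?_
        have := (hc u hu v hv).1
        rwa [E8_eq, E8_eq, if_neg (by omega), if_neg (by omega), add_zero, add_zero] at this
      have e8 : E8 tp θ u₀ = 0 := by
        rw [E8_eq, if_neg (by omega), add_zero]; exact ft_AA hP' hu₀ hx
      rw [hsT, z_AA hz hx, sgn2_eq, pw_zero, one_mul, e8, e5, slot_eq, pw_zero, one_mul, pw_zero,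
        one_mul]
      by_cases hcl : cl = 0
      · obtain ⟨h1, h2⟩ := hTT.2 hcl
        rw [E3_eq, h2, dt_zero_left, pw_zero]
      · have h3 := hn.2.2
        rw [if_neg hcl] at h3
        have hd : dd tp n = n := by unfold dd; rw [if_neg (by omega)]
        rw [hd] at h3
        have j3 : J n 3 = 1 := by rw [J_mod n 3 1 h3.1, J_one]
        rw [j3]
        unfold pw
        split_ifs <;> rfl
    · have h2 := IsG_tp hn h0 h1
      have key : ∀ u ∈ U, dt (ft u) (θ.1 + fx u₀) = E8 tp θ u := by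
        intro u hu
        have h3 := hP' u₀ hu₀ u hu
        rw [Pk_eq, dt_add_right] at h3
        rw [E8_eq, if_pos h2, dt_add_right]
        linear_combination h3 - dt (ft u) (fx u) * two0
      have hx : θ.1 + fx u₀ ∈ AA U := by
        refine mem_AA_of_const hU hg fun u hu v hv => ?_
        rw [key u hu, key v hv]
        exact (hc u hu v hv).1
      have e8 : E8 tp θ u₀ = 0 := by
        rw [← key u₀ hu₀]; exact ft_AA hP' hu₀ hx
      have e3 : dt θ.2.2 θ.1 = E3 θ u₀ := by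
        have h4 := z_AA hz hx
        rw [dt_add_right] at h4
        rw [E3_eq]
        exact z_eq_of_add h4
      rw [hsT, e3, e8, e5, slot_eq, pw_zero, one_mul, pw_zero, one_mul, sgn2_eq, ← pw_mul]
      by_cases hcl : cl = 0
      · obtain ⟨h1, h2⟩ := hTT.2 hcl
        rw [E3_eq, h2, dt_zero_left, pw_zero]
      · have h3 := hn.2.2
        rw [if_neg hcl] at h3
        have hd : dd tp n = 2 * n := by unfold dd; rw [if_pos h2]
        rw [hd] at h3
        have j3 : J n 3 = -1 := by rw [J_mod n 3 2 (by omega), J23]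
        rw [j3]
        unfold pw
        split_ifs <;> norm_num

/-- constancy implies triviality -/
theorem triv_of {tp cl : ℕ} {θ : Tx k} {U : Finset (Ix k)}
    (hU : U ∈ UsN (Pk k) (2 ^ k)) (hg : Good (Pk k) U) {u₀ : Ix k} (hu₀ : u₀ ∈ U) {n : ℕ}
    (hn : IsG tp cl n)
    (hc : ∀ u ∈ U, ∀ v ∈ U, E8 tp θ u = E8 tp θ v ∧ E5 θ u = E5 θ v ∧ E3 θ u = E3 θ v)
    (hl : n % 4 = 1 → ∀ u ∈ U, ∀ v ∈ U, Pk k u₀ u = Pk k u₀ v) : TrivT tp θ U := by
  have hU' := (mem_UsN _ _ _).mp hU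
  refine ⟨hg, hc, fun h0 u hu v hv => ?_⟩
  by_cases h1 : tp = 1
  · have h2 := hn.2.1
    rw [if_neg h0, if_pos h1] at h2
    have h3 := hl h2
    have h4 : Pk k u₀ u₀ = 0 := H506.S3.Pk_self u₀
    have h5 := hg u hu v hv u₀ hu₀
    rw [h5, hU'.2 u hu u₀ hu₀, hU'.2 v hv u₀ hu₀, h3 u hu u₀ hu₀, h3 v hv u₀ hu₀, h4, add_zero]
  · have h2 := IsG_tp hn h0 h1
    have hz : mk (fx u) (ft v) ∈ U := by
      rw [mem_iff hU'.1 hU'.2 hg hu, fx_mk, ft_mk, add_self]
      refine ⟨(AA_cl hU'.1 hU'.2 hg (nonempty_of hU)).1, fun a ha => ?_⟩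
      exact (AA_iff hU'.1 hU'.2 hg (nonempty_of hU) a).mp ha u hu v hv
    have h3 := (hc _ hz v hv).1
    rw [E8_eq, E8_eq, if_pos h2, if_pos h2, fx_mk, ft_mk] at h3
    have h4 := add_left_cancel h3
    rw [Pk_eq, dt_add_right, h4, z_add_self]

/-- the factor at a prime -/
noncomputable def al (tp : ℕ) (θ : Tx k) (u₀ : Ix k) (n p : ℕ) (u : Ix k) : ℝ :=
  slot (E8 tp θ u) (E5 θ u) (E3 θ u) p *
        (if p % 4 = 3 ∧ n % 4 = 1 then sgn2 (Pk k u₀ u) else 1)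

theorem al_abs (tp : ℕ) (θ : Tx k) (u₀ : Ix k) (n p : ℕ) (u : Ix k) : |al tp θ u₀ n p u| ≤ 1 := by
  unfold al
  rw [abs_mul]
  have h1 := slot_abs (E8 tp θ u) (E5 θ u) (E3 θ u) p
  have h2 : |(if p % 4 = 3 ∧ n % 4 = 1 then sgn2 (Pk k u₀ u) else 1)| ≤ 1 := by
    split_ifs
    · exact sgn2_abs _
    · rw [abs_one]
  have := mul_le_mul h1 h2 (abs_nonneg _) zero_le_one
  rwa [one_mul] at this

theorem prodT_abs {tp : ℕ} {θ : Tx k} {U : Finset (Ix k)}
    (hU : U ∈ UsN (Pk k) (2 ^ k)) (u₀ : Ix k) (n : ℕ) : |prodT tp θ U u₀ n| ≤ 1 := by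
  have hU' := (mem_UsN _ _ _).mp hU
  have hpos : (0 : ℝ) < ((2 ^ k : ℕ) : ℝ) := by exact_mod_cast (pow_pos (by norm_num) k : 0 < 2 ^ k)
  unfold prodT
  rw [Finset.abs_prod]
  refine Finset.prod_le_one (fun p _ => abs_nonneg _) fun p _ => ?_
  have h1 : |∑ u ∈ U, al tp θ u₀ n p u| ≤ ((2 ^ k : ℕ) : ℝ) := by
    refine (Finset.abs_sum_le_sum_abs _ _).trans ?_
    refine (Finset.sum_le_sum fun u _ => al_abs tp θ u₀ n p u).trans ?_
    rw [Finset.sum_const, nsmul_eq_mul, mul_one, hU'.1]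
  have h2 : |(1 / ((2 ^ k : ℕ) : ℝ)) * ∑ u ∈ U, al tp θ u₀ n p u| ≤ 1 := by
    rw [abs_mul, abs_of_pos (one_div_pos.mpr hpos)]
    have := mul_le_mul_of_nonneg_left h1 (one_div_pos.mpr hpos).le
    rwa [one_div_mul_cancel hpos.ne'] at this
  exact h2

theorem prodT_zero {tp : ℕ} {θ : Tx k} {U : Finset (Ix k)} (u₀ : Ix k) {n p : ℕ}
    (hp : p ∈ n.primeFactors) (h : ∑ u ∈ U, al tp θ u₀ n p u = 0) : prodT tp θ U u₀ n = 0 := by
  unfold prodT
  refine Finset.prod_eq_zero hp ?_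
  have h2 : (1 / ((2 ^ k : ℕ) : ℝ)) * ∑ u ∈ U, al tp θ u₀ n p u = 0 := by rw [h, mul_zero]
  exact h2

theorem Gn_nonneg (n : ℕ) : 0 ≤ Gn n := by
  unfold Gn
  refine add_nonneg (by positivity) (Finset.sum_nonneg fun j _ => ?_)
  split_ifs
  · exact zero_le_one
  · exact le_refl _

/-- the exponents as an index of a character -/
def jv (a b c d : ZMod 2) : Fin 4 → Fin 2 := ![a, b, c, d]

theorem Psi_jv (a b c d : ZMod 2) (m : ℕ) :
    Psi (jv a b c d) m = pw a (chi4 m) * pw b (chi8 m) * pw c (J m 5) * pw d (J m 3) := by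
  rw [pw_eq, pw_eq, pw_eq, pw_eq]
  rfl

theorem Gn_ge {n : ℕ} {j : Fin 4 → Fin 2} (hj : j ≠ 0)
    (h : ∀ p ∈ n.primeFactors, Psi j p ≠ -1) : 1 ≤ Gn n := by
  classical
  unfold Gn
  have h1 : (1 : ℝ) ≤ ∑ j ∈ (univ : Finset (Fin 4 → Fin 2)).filter (fun j => j ≠ 0),
      (if ∀ p ∈ n.primeFactors, Psi j p ≠ -1 then (1 : ℝ) else 0) := by
    have h2 := Finset.single_le_sum (f := fun j : Fin 4 → Fin 2 =>
      (if ∀ p ∈ n.primeFactors, Psi j p ≠ -1 then (1 : ℝ) else 0))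
      (s := (univ : Finset (Fin 4 → Fin 2)).filter (fun j => j ≠ 0)) (fun i _ => by
        split_ifs
        · exact zero_le_one
        · exact le_refl _) (Finset.mem_filter.mpr ⟨Finset.mem_univ j, hj⟩)
    rw [if_pos h] at h2
    exact h2
  have h3 : (0 : ℝ) ≤ 2 * (1 / 2 : ℝ) ^ (n.primeFactors.filter (fun p => p % 4 = 3)).card := by
    positivity
  linarith

theorem jv_ne {a b c d : ZMod 2} (h : a ≠ 0 ∨ b ≠ 0 ∨ c ≠ 0 ∨ d ≠ 0) : jv a b c d ≠ 0 := by
  intro h0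
  have e0 := congrFun h0 0
  have e1 := congrFun h0 1
  have e2 := congrFun h0 2
  have e3 := congrFun h0 3
  rcases h with h | h | h | h
  · exact h e0
  · exact h e1
  · exact h e2
  · exact h e3

/-- the shift by a pair multiplies the factor by a character value -/
theorem al_shift {tp cl : ℕ} {θ : Tx k} (hθ : θ ∈ TT tp cl k) {U : Finset (Ix k)}
    (hU : U ∈ UsN (Pk k) (2 ^ k)) (u₀ : Ix k) {n : ℕ} (hn : IsG tp cl n) {p : ℕ}
    (hp : p ∈ n.primeFactors) {u v w : Ix k} (hu : u ∈ U) (hv : v ∈ U) (hw : w ∈ U) :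
    al tp θ u₀ n p (w + u + v) = al tp θ u₀ n p w *
      Psi (jv (if n % 4 = 1 then Pk k u₀ u + Pk k u₀ v else 0) (E8 tp θ u + E8 tp θ v)
        (E5 θ u + E5 θ v) (E3 θ u + E3 θ v)) p := by
  have hU' := (mem_UsN _ _ _).mp hU
  have hodd := IsG_odd hn
  have hpp := Nat.prime_of_mem_primeFactors hp
  have hpn := Nat.dvd_of_mem_primeFactors hp
  have hp2 : p % 2 = 1 := by
    rcases Nat.mod_two_eq_zero_or_one p with h | h
    · exfalso
      have : 2 ∣ n := (Nat.dvd_of_mod_eq_zero h).trans hpn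
      omega
    · exact h
  have hTT : (tp = 0 → θ.1 = 0) ∧ (cl = 0 → θ.2.1 = 0 ∧ θ.2.2 = 0) := by
    unfold TT at hθ
    exact (Finset.mem_filter.mp hθ).2
  have hdd : p ∣ dd tp n := by
    unfold dd
    split_ifs
    · exact hpn.mul_left 2
    · exact hpn
  -- conditions at 5 and 3
  have c5 : ∀ x y : Ix k, J p 5 * J p 5 = 1 ∨ (E5 θ x = 0 ∧ E5 θ y = 0) := by
    intro x y
    by_cases hcl : cl = 0
    · right
      rw [E5_eq, E5_eq, (hTT.2 hcl).1, dt_zero_right, dt_zero_right]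
      exact ⟨rfl, rfl⟩
    · left
      refine J_sq ((Nat.coprime_primes hpp (by norm_num)).mpr ?_)
      rintro rfl
      have h3 := hn.2.2
      rw [if_neg hcl] at h3
      omega
  have c3 : ∀ x y : Ix k, J p 3 * J p 3 = 1 ∨ (E3 θ x = 0 ∧ E3 θ y = 0) := by
    intro x y
    by_cases hcl : cl = 0
    · right
      rw [E3_eq, E3_eq, (hTT.2 hcl).2, dt_zero_left, dt_zero_left]
      exact ⟨rfl, rfl⟩
    · left
      refine J_sq ((Nat.coprime_primes hpp (by norm_num)).mpr ?_)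
      rintro rfl
      have h3 := hn.2.2
      rw [if_neg hcl] at h3
      omega
  have c5' : J p 5 * J p 5 = 1 ∨ (E5 θ w = 0 ∧ E5 θ u + E5 θ v = 0) := by
    rcases c5 w u with h | h
    · exact Or.inl h
    · rcases c5 u v with h' | h'
      · exact Or.inl h'
      · exact Or.inr ⟨h.1, by rw [h'.1, h'.2, add_zero]⟩
  have c3' : J p 3 * J p 3 = 1 ∨ (E3 θ w = 0 ∧ E3 θ u + E3 θ v = 0) := by
    rcases c3 w u with h | h
    · exact Or.inl h
    · rcases c3 u v with h' | h'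
      · exact Or.inl h'
      · exact Or.inr ⟨h.1, by rw [h'.1, h'.2, add_zero]⟩
  have h4 : (if p % 4 = 3 ∧ n % 4 = 1 then sgn2 (Pk k u₀ (w + u + v)) else 1) =
      (if p % 4 = 3 ∧ n % 4 = 1 then sgn2 (Pk k u₀ w) else 1) *
        pw (if n % 4 = 1 then Pk k u₀ u + Pk k u₀ v else 0) (chi4 p) := by
    by_cases hn1 : n % 4 = 1
    · by_cases hp3 : p % 4 = 3
      · have e4 : chi4 p = -1 := by
          unfold chi4
          rw [if_neg (by omega), if_pos hp3]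
        rw [if_pos ⟨hp3, hn1⟩, if_pos ⟨hp3, hn1⟩, if_pos hn1, e4, Pk_add3 hU'.2 u₀ hw hu hv,
          add_assoc, sgn2_eq, sgn2_eq, pw_add (Or.inl (by norm_num))]
      · have e4 : chi4 p = 1 := by
          unfold chi4
          rw [if_pos (by omega)]
        rw [if_neg (fun h => hp3 h.1), if_neg (fun h => hp3 h.1), if_pos hn1, e4, one_mul]
        unfold pw
        split_ifs <;> rfl
    · rw [if_neg (fun h => hn1 h.2), if_neg (fun h => hn1 h.2), if_neg hn1, pw_zero, one_mul]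
  unfold al
  rw [h4, Psi_jv, E8_add3 hU'.2 tp θ hw hu hv, E5_add3, E3_add3, slot_eq, slot_eq, add_assoc,
    add_assoc, add_assoc, pw_add (Or.inl (chi8_sq hp2)), pw_add c5', pw_add c3']
  ring

/-- the good sets which are not trivial are small -/
theorem small_prod {tp cl : ℕ} {θ : Tx k} (hθ : θ ∈ TT tp cl k) {U : Finset (Ix k)}
    (hU : U ∈ UsN (Pk k) (2 ^ k)) (hg : Good (Pk k) U) (ht : ¬ TrivT tp θ U) {u₀ : Ix k}
    (hu₀ : u₀ ∈ U) {n : ℕ} (hn : IsG tp cl n) : |prodT tp θ U u₀ n| ≤ Gn n := by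
  obtain ⟨u, hu, v, hv, hj⟩ : ∃ u ∈ U, ∃ v ∈ U,
      ((if n % 4 = 1 then Pk k u₀ u + Pk k u₀ v else 0) ≠ 0 ∨ E8 tp θ u + E8 tp θ v ≠ 0 ∨
        E5 θ u + E5 θ v ≠ 0 ∨ E3 θ u + E3 θ v ≠ 0) := by
    by_contra hcon
    push Not at hcon
    refine ht (triv_of hU hg hu₀ hn (fun u hu v hv => ?_) (fun h u hu v hv => ?_))
    · obtain ⟨-, h1, h2, h3⟩ := hcon u hu v hv
      exact ⟨z_eq_of_add h1, z_eq_of_add h2, z_eq_of_add h3⟩
    · obtain ⟨h1, -⟩ := hcon u hu v hv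
      rw [if_pos h] at h1
      exact z_eq_of_add h1
  by_cases hPsi : ∀ p ∈ n.primeFactors,
      Psi (jv (if n % 4 = 1 then Pk k u₀ u + Pk k u₀ v else 0) (E8 tp θ u + E8 tp θ v)
        (E5 θ u + E5 θ v) (E3 θ u + E3 θ v)) p ≠ -1
  · exact (prodT_abs hU u₀ n).trans (Gn_ge (jv_ne hj) hPsi)
  · push Not at hPsi
    obtain ⟨p, hp, hps⟩ := hPsi
    have h1 : ∑ w ∈ U, al tp θ u₀ n p w = 0 := by
      refine sum_zero hU hu hv _ fun w hw => ?_
      rw [al_shift hθ hU u₀ hn hp hu hv hw, hps, mul_neg_one]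
    rw [prodT_zero u₀ hp h1, abs_zero]
    exact Gn_nonneg n

end sets

end Vale.Agent.P017.H654
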